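import Vale.Agent.P032W.H892.SixEv

/-!
# P032: the flip of the crystal word at a six-coloured point

`C6.no_flip` : there is no time `u` with the letters `(σ (k-1), σ (k+3))` just before `u + k` and
`(σ k, σ (k+2))` just after `u + k`, `k = 0, ..., 5`.
-/

open Set Filter Topology Metric

noncomputable section

namespace Vale.Agent.P032.H821

open Vale.Agent.P032.Six Vale.Agent.P032.Words Vale.Agent.P032.S5.H767 Vale.Agent.P032.H892

/-! ### distances -/

/-- a distance -/
def FF (a b : ℝ) : ℝ := ‖cis (a * (Real.pi / 3)) + cis (b * (Real.pi / 3)) - 1 - cis (Real.pi / 3)‖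

/-- a distance -/
def GG (a b : ℝ) : ℝ :=
  ‖cis (a * (Real.pi / 3)) + cis ((2 + b) * (Real.pi / 3)) - cis (Real.pi / 3) -
    cis (2 * (Real.pi / 3))‖

theorem cis_split (s t : ℝ) :
    cis ((s + t) * (Real.pi / 3)) = cis (s * (Real.pi / 3)) * cis (t * (Real.pi / 3)) := by
  rw [← Six.cis_add]; congr 1; ring

theorem dist_V0 (z : ℂ) (s a b : ℝ) :
    dist (pt z (s + a) + pt z (s + b) - z) (pt z s + pt z (s + 1) - z) = FF a b := by
  have e1 : pt z (s + a) + pt z (s + b) - z - (pt z s + pt z (s + 1) - z) =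
      cis (s * (Real.pi / 3)) *
        (cis (a * (Real.pi / 3)) + cis (b * (Real.pi / 3)) - 1 - cis (Real.pi / 3)) := by
    unfold pt
    rw [cis_split, cis_split, cis_split, one_mul]; ring
  rw [dist_eq_norm, e1, norm_mul, norm_cis, one_mul]; rfl

theorem sq_norm' (x : ℂ) : ‖x‖ ^ 2 = x.re ^ 2 + x.im ^ 2 := by
  rw [Complex.sq_norm, Complex.normSq_apply]; ring

theorem FF_sq (a b : ℝ) : FF a b ^ 2 =
    (Real.cos (a * (Real.pi / 3)) + Real.cos (b * (Real.pi / 3)) - 3 / 2) ^ 2 +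
    (Real.sin (a * (Real.pi / 3)) + Real.sin (b * (Real.pi / 3)) - √3 / 2) ^ 2 := by
  unfold FF
  rw [sq_norm', cis_third]
  simp only [Complex.sub_re, Complex.sub_im, Complex.add_re, Complex.add_im, Complex.one_re,
    Complex.one_im, cis_re, cis_im]
  ring

theorem dist_V1 (z : ℂ) (s a b : ℝ) :
    dist (pt z (s + 1 + a) + pt z (s + 1 + b) - z) (pt z s + pt z (s + 1) - z) = FF (-b) (-a) := by
  have e1 : pt z (s + 1 + a) + pt z (s + 1 + b) - z - (pt z s + pt z (s + 1) - z) =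
      cis ((s + 1) * (Real.pi / 3)) *
        (cis (a * (Real.pi / 3)) + cis (b * (Real.pi / 3)) - 1 - cis (-(Real.pi / 3))) := by
    unfold pt
    rw [cis_split (s + 1), cis_split (s + 1)]
    have e2 : cis (s * (Real.pi / 3)) = cis ((s + 1) * (Real.pi / 3)) * cis (-(Real.pi / 3)) := by
      rw [← Six.cis_add]; congr 1; ring
    rw [e2]; ring
  have h0 : 0 ≤ FF (-b) (-a) := norm_nonneg _
  rw [← sq_eq_sq₀ dist_nonneg h0, FF_sq, dist_eq_norm, e1, norm_mul, norm_cis, one_mul, sq_norm',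
    cis_neg_third]
  simp only [Complex.sub_re, Complex.sub_im, Complex.add_re, Complex.add_im, Complex.one_re,
    Complex.one_im, cis_re, cis_im, neg_mul, Real.cos_neg, Real.sin_neg]
  ring

theorem dist_X (z : ℂ) (s a b : ℝ) :
    dist (pt z (s + a) + pt z (s + 2 + b) - z) (pt z (s + 1) + pt z (s + 2) - z) = GG a b := by
  have e1 : pt z (s + a) + pt z (s + 2 + b) - z - (pt z (s + 1) + pt z (s + 2) - z) =
      cis (s * (Real.pi / 3)) *
        (cis (a * (Real.pi / 3)) + cis ((2 + b) * (Real.pi / 3)) - cis (Real.pi / 3) -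
          cis (2 * (Real.pi / 3))) := by
    unfold pt
    have e2 : s + 2 + b = s + (2 + b) := by ring
    rw [e2, cis_split s a, cis_split s (2 + b), cis_split s 1, cis_split s 2, one_mul]; ring
  rw [dist_eq_norm, e1, norm_mul, norm_cis, one_mul]; rfl

theorem GG_sq (a b : ℝ) : GG a b ^ 2 =
    (Real.cos (a * (Real.pi / 3)) - Real.cos (b * (Real.pi / 3)) / 2
      - √3 / 2 * Real.sin (b * (Real.pi / 3))) ^ 2 +
    (Real.sin (a * (Real.pi / 3)) + √3 / 2 * Real.cos (b * (Real.pi / 3))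
      - Real.sin (b * (Real.pi / 3)) / 2 - √3) ^ 2 := by
  unfold GG
  have h3 : √3 * √3 = 3 := Real.mul_self_sqrt (by norm_num)
  have e2 : cis (2 * (Real.pi / 3)) = ⟨-(1 / 2), √3 / 2⟩ := by
    have : (2 : ℝ) * (Real.pi / 3) = Real.pi / 3 + Real.pi / 3 := by ring
    rw [this, Six.cis_add, cis_third]
    apply Complex.ext
    · simp only [Complex.mul_re]; nlinarith
    · simp only [Complex.mul_im]; ring
  rw [cis_split 2 b, e2, sq_norm', cis_third]
  simp only [Complex.sub_re, Complex.sub_im, Complex.add_re, Complex.add_im, Complex.mul_re,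
    Complex.mul_im, cis_re, cis_im]
  ring

theorem small {δ : ℝ} (h1 : δ ≤ 1 / 4) : δ * (Real.pi / 3) < 1 / 2 := by
  have := Real.pi_lt_d2
  have h0 := Real.pi_pos
  nlinarith

theorem sin_pos6 {t : ℝ} (h1 : 0 < t) (h2 : t < 3) : 0 < Real.sin (t * (Real.pi / 3)) := by
  have := Real.pi_pos
  exact Real.sin_pos_of_pos_of_lt_pi (by positivity) (by nlinarith)

theorem cos_lt_one' {t : ℝ} (h1 : 0 < t) (h2 : t < 3) : Real.cos (t * (Real.pi / 3)) < 1 := by
  have h3 := sin_pos6 h1 h2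
  have h4 := Real.sin_sq_add_cos_sq (t * (Real.pi / 3))
  nlinarith

theorem FF_cont (a : ℝ) : Continuous fun b => FF a b := by
  unfold FF
  exact ((continuous_const.add (continuous_cis.comp (by fun_prop))).sub continuous_const |>.sub
    continuous_const).norm

theorem exists_FF {δ : ℝ} (h0 : 0 < δ) (h1 : δ ≤ 1 / 4) :
    ∃ a b, -δ < a ∧ a < 0 ∧ 0 < b ∧ b < δ ∧ FF a b = 1 := by
  set t := δ / 2 with ht
  have ht0 : 0 < t := by positivity
  have ht3 : t < 3 := by linarith
  have hs := small h1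
  have hpi := Real.pi_pos
  have hT : t * (Real.pi / 3) < 1 / 2 := by nlinarith
  have hT0 : 0 < t * (Real.pi / 3) := by positivity
  have c1 := cos_lt_one' ht0 ht3
  have s1 := sin_pos6 ht0 ht3
  have c2 := Real.one_sub_sq_div_two_le_cos (x := t * (Real.pi / 3))
  have hsq := Real.sin_sq_add_cos_sq (t * (Real.pi / 3))
  have h3 : √3 * √3 = 3 := Real.mul_self_sqrt (by norm_num)
  have h3' : 0 < √3 := by positivity
  have k1 : 1 < FF (-t) 0 := by
    have h := FF_sq (-t) 0
    simp only [zero_mul, Real.cos_zero, Real.sin_zero, neg_mul, Real.cos_neg, Real.sin_neg] at h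
    have hn : 0 ≤ FF (-t) 0 := norm_nonneg _
    nlinarith
  have k2 : FF (-t) t < 1 := by
    have h := FF_sq (-t) t
    simp only [neg_mul, Real.cos_neg, Real.sin_neg] at h
    have hn : 0 ≤ FF (-t) t := norm_nonneg _
    have h4 : FF (-t) t ^ 2 = 4 * Real.cos (t * (Real.pi / 3)) ^ 2 -
        6 * Real.cos (t * (Real.pi / 3)) + 3 := by
      rw [h]; linear_combination h3 / 4
    have h5 : 1 / 2 < Real.cos (t * (Real.pi / 3)) := by nlinarith
    nlinarith [mul_pos (sub_pos.2 h5) (sub_pos.2 c1)]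
  obtain ⟨b, hb, hb1⟩ := intermediate_value_Icc' ht0.le (FF_cont (-t)).continuousOn
    ⟨k2.le, k1.le⟩
  refine ⟨-t, b, by linarith, by linarith, ?_, by linarith [hb.2], hb1⟩
  rcases hb.1.lt_or_eq with h | h
  · exact h
  · rw [← h] at hb1; linarith

theorem exists_GG {b : ℝ} (h0 : 0 < b) (h1 : b ≤ 1 / 4) :
    ∃ a, 0 < a ∧ a < b ∧ GG a b = 1 := by
  have hb3 : b < 3 := by linarith
  have hpi := Real.pi_pos
  have hT := small h1
  have hT0 : 0 < b * (Real.pi / 3) := by positivity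
  have c1 := cos_lt_one' h0 hb3
  have s1 := sin_pos6 h0 hb3
  have c2 := Real.one_sub_sq_div_two_le_cos (x := b * (Real.pi / 3))
  have s2 := Real.sin_gt_sub_cube hT0
  have hsq := Real.sin_sq_add_cos_sq (b * (Real.pi / 3))
  have h3 : √3 * √3 = 3 := Real.mul_self_sqrt (by norm_num)
  have h3' : 0 < √3 := by positivity
  set B := b * (Real.pi / 3) with hB
  have k1 : 1 < GG 0 b := by
    have h := GG_sq 0 b
    simp only [zero_mul, Real.cos_zero, Real.sin_zero] at h
    rw [← hB] at h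
    have hn : 0 ≤ GG 0 b := norm_nonneg _
    have h4 : GG 0 b ^ 2 = 5 - 4 * Real.cos B := by
      rw [h]
      linear_combination (h3 / 4) * (Real.sin B ^ 2 + Real.cos B ^ 2) + hsq + h3 * (1 - Real.cos B)
    nlinarith
  have k2 : GG b b < 1 := by
    have h := GG_sq b b
    rw [← hB] at h
    have hn : 0 ≤ GG b b := norm_nonneg _
    have h4 : GG b b ^ 2 = 4 - 3 * Real.cos B - √3 * Real.sin B := by
      rw [h]
      linear_combination (h3 / 4) * (Real.sin B ^ 2 + Real.cos B ^ 2) + hsq + h3 * (1 - Real.cos B)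
    have h5 : 17 / 10 < √3 := by
      rw [Real.lt_sqrt (by norm_num)]; norm_num
    have h6 : √3 * Real.sin B > √3 * (B - B ^ 3 / 6) := by nlinarith
    have h7 : √3 * (B - B ^ 3 / 6) ≥ 17 / 10 * (B - B ^ 3 / 6) := by
      have : 0 < B - B ^ 3 / 6 := by nlinarith [mul_pos hT0 hT0]
      nlinarith
    have h8 : 17 / 10 * (B - B ^ 3 / 6) > 3 * B ^ 2 / 2 := by
      nlinarith [mul_pos hT0 hT0]
    nlinarith
  have hcont : ContinuousOn (fun a => GG a b) (Icc 0 b) := by
    unfold GG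
    exact (((((continuous_cis.comp (by fun_prop)).add continuous_const).sub continuous_const).sub
      continuous_const).norm).continuousOn
  obtain ⟨a, ha, ha1⟩ := intermediate_value_Icc' h0.le hcont ⟨k2.le, k1.le⟩
  refine ⟨a, ?_, ?_, ha1⟩
  · rcases ha.1.lt_or_eq with h | h
    · exact h
    · have ha1 : GG a b = 1 := ha1
      rw [← h] at ha1; linarith
  · rcases ha.2.lt_or_eq with h | h
    · exact h
    · have ha1 : GG a b = 1 := ha1
      rw [h] at ha1; linarith

/-- points of the circle about `pt z s` near `z`, in polar coordinates -/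
theorem polar1 (z : ℂ) (s d : ℝ) : z + pt z s - pt z (s + d) =
    po z (2 * Real.sin (d * (Real.pi / 6)), s + d / 2 - 3 / 2) := by
  unfold pt po
  simp only
  rw [cis_split]
  have e1 : (s + d / 2 - 3 / 2) * (Real.pi / 3) = s * (Real.pi / 3) + (d * (Real.pi / 6) - Real.pi / 2) := by
    ring
  rw [e1, Six.cis_add]
  have e2 : 1 - cis (d * (Real.pi / 3)) =
      (2 * Real.sin (d * (Real.pi / 6)) : ℝ) * cis (d * (Real.pi / 6) - Real.pi / 2) := by
    have e3 : d * (Real.pi / 3) = 2 * (d * (Real.pi / 6)) := by ring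
    have h1 := Real.sin_sq_add_cos_sq (d * (Real.pi / 6))
    rw [e3]
    apply Complex.ext
    · simp only [Complex.sub_re, Complex.one_re, Complex.mul_re, Complex.ofReal_re,
        Complex.ofReal_im, cis_re, cis_im, Real.cos_two_mul, Real.cos_sub_pi_div_two]
      nlinarith
    · simp only [Complex.sub_im, Complex.one_im, Complex.mul_im, Complex.ofReal_re,
        Complex.ofReal_im, cis_re, cis_im, Real.sin_two_mul, Real.sin_sub_pi_div_two]
      ring
  linear_combination cis (s * (Real.pi / 3)) * e2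

theorem polar2 (z : ℂ) (s d : ℝ) : z + pt z s - pt z (s + d) =
    po z (2 * Real.sin (-d * (Real.pi / 6)), s + d / 2 + 3 / 2) := by
  rw [polar1]
  unfold po
  simp only
  have e1 : (s + d / 2 + 3 / 2) * (Real.pi / 3) = (s + d / 2 - 3 / 2) * (Real.pi / 3) + Real.pi := by ring
  have e2 : -d * (Real.pi / 6) = -(d * (Real.pi / 6)) := by ring
  rw [e1, Six.cis_add, cis_pi, e2, Real.sin_neg]
  push_cast
  ring

/-! ### the flip -/

variable {U : Fin 6 → Set ℂ} {T : ℂ → Set (Fin 6)} {z : ℂ}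

theorem val_add_real (k j : Fin 6) :
    ((k + j).val : ℝ) = k.val + j.val ∨ ((k + j).val : ℝ) = k.val + j.val - 6 := by
  rw [Fin.val_add]
  have hk := k.isLt
  have hj := j.isLt
  rcases Nat.lt_or_ge (k.val + j.val) 6 with h | h
  · left; rw [Nat.mod_eq_of_lt h]; push_cast; ring
  · right
    have h2 : (k.val + j.val) % 6 = k.val + j.val - 6 := by omega
    rw [h2, Nat.cast_sub h]; push_cast; ring

theorem pt_shift (z : ℂ) (u a : ℝ) (k j : Fin 6) :
    pt z (u + ((k + j).val : ℝ) + a) = pt z (u + k.val + j.val + a) := by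
  rcases val_add_real k j with h | h
  · rw [h]; congr 1; ring
  · rw [h, ← pt_six]; congr 1; ring

theorem ang_ne (z : ℂ) {s t : ℝ} (h : Real.sin ((t - s) * (Real.pi / 3)) ≠ 0) :
    pt z t ≠ pt z s ∧ pt z t + pt z s ≠ 2 * z := by
  have e : (t - s) * (Real.pi / 3) = t * (Real.pi / 3) - s * (Real.pi / 3) := by ring
  rw [e, Real.sin_sub] at h
  constructor
  · intro h1
    have h2 : cis (t * (Real.pi / 3)) = cis (s * (Real.pi / 3)) := by
      unfold pt at h1; exact add_left_cancel h1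
    have hr := congrArg Complex.re h2
    have hi := congrArg Complex.im h2
    rw [cis_re, cis_re] at hr
    rw [cis_im, cis_im] at hi
    apply h; rw [hr, hi]; ring
  · intro h1
    have h2 : cis (t * (Real.pi / 3)) = - cis (s * (Real.pi / 3)) := by
      unfold pt at h1; linear_combination h1
    have hr := congrArg Complex.re h2
    have hi := congrArg Complex.im h2
    rw [Complex.neg_re, cis_re, cis_re] at hr
    rw [Complex.neg_im, cis_im, cis_im] at hi
    apply h; rw [hr, hi]; ring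

/-- small boxes -/
theorem box {P : ℝ × ℝ → Prop} (h : ∀ᶠ p in 𝓝 ((0 : ℝ), (0 : ℝ)), P p) :
    ∃ δ > 0, ∀ a b : ℝ, |a| < δ → |b| < δ → P (a, b) := by
  obtain ⟨δ, hδ, h1⟩ := Metric.eventually_nhds_iff.1 h
  refine ⟨δ, hδ, fun a b ha hb => h1 ?_⟩
  rw [Prod.dist_eq, Real.dist_eq, Real.dist_eq]
  simp only [sub_zero]
  exact max_lt ha hb

/-- **Crossing arcs**: near `x` only the colours `i`, `j`; the circles about `c ∈ closure U i` and
`q ∈ closure U j` cross at `x`. -/
theorem no_cross (h : Irr U T) {x c q : ℂ} {i j : Fin 6} (hc : dist x c = 1) (hq : dist x q = 1)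
    (h1 : c ≠ q) (h2 : c + q ≠ 2 * x) (hT : T x ⊆ {i, j}) (hi : i ∈ Pal U c) (hj : j ∈ Pal U q) :
    False := by
  obtain ⟨t0, ht0⟩ := exists_cis (u := x - q) (by rw [← dist_eq_norm]; exact hq)
  have hx : x = q + cis t0 := by rw [← ht0]; ring
  have hcr : cr (cis t0) (q + cis t0 - c) ≠ 0 := by
    rw [← ht0]
    have e : q + (x - q) - c = x - c := by ring
    rw [e]
    exact cr_ne hq hc (fun h => h1 h.symm) (fun h => h2 (by rw [← h]; ring))
  have hN : ∀ᶠ t in 𝓝 t0, T (q + cis t) ⊆ T x := by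
    have hcont : ContinuousAt (fun t => q + cis t) t0 :=
      (continuous_const.add continuous_cis).continuousAt
    have := h.nhd x
    rw [hx] at this
    have h3 := hcont.eventually this
    rw [← hx] at h3
    exact h3
  obtain ⟨η, hη, hN⟩ := Metric.eventually_nhds_iff.1 hN
  have hcx := crossing (c := q) (q₀ := c) (t0 := t0) (by rw [← hx]; exact hc) hcr hη
  obtain ⟨c', hc', t, ht, hd⟩ := ((mem_closure_iff_frequently.1 hi).and_eventually hcx).exists
  have hsub := hN (y := t) (by rw [Real.dist_eq]; exact ht)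
  have h5 : i ∉ T (q + cis t) := fun h6 =>
    h.mx.notMem' hc' (by rw [dist_comm]; exact hd) (h.sub _ h6)
  have h6 : q + cis t ∈ U j := by
    refine h.mem_of_single fun m hm => ?_
    rcases hT (hsub hm) with h7 | h7
    · exact absurd (h7 ▸ hm) h5
    · exact h7
  exact h.mx.notMem' h6 (dist_add_cis q t) hj

/-- the data of a flip -/
structure Fl (U : Fin 6 → Set ℂ) (T : ℂ → Set (Fin 6)) (z : ℂ) (u ε : ℝ) (σ : Fin 6 → Fin 6) :
    Prop where
  C : C6 U T z
  inj : Function.Injective σ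
  pos : 0 < ε
  le : ε ≤ 1 / 4
  L : ∀ k : Fin 6, ∀ a : ℝ, -ε < a → a < 0 → u + k.val + a ∈ O6 U T z (σ (k - 1), σ (k + 3))
  R : ∀ k : Fin 6, ∀ a : ℝ, 0 < a → a < ε → u + k.val + a ∈ O6 U T z (σ k, σ (k + 2))

theorem o6_shift {l : L6} {u a : ℝ} {k j : Fin 6} :
    u + ((k + j).val : ℝ) + a ∈ O6 U T z l ↔ u + k.val + j.val + a ∈ O6 U T z l := by
  unfold O6
  simp only [mem_ofPred_eq, pt_shift]

namespace Fl

variable {u ε : ℝ} {σ : Fin 6 → Fin 6} (F : Fl U T z u ε σ)
include F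

theorem surj : Function.Surjective σ := Finite.injective_iff_surjective.1 F.inj

theorem exi (x : ℂ) : ∃ m, σ m ∈ T x := by
  obtain ⟨i, hi⟩ := F.C.irr.ne x
  obtain ⟨m, rfl⟩ := F.surj i
  exact ⟨m, hi⟩

/-- a point with one colour -/
theorem mem_of {x : ℂ} {n : Fin 6} (h : ∀ m, σ m ∈ T x → m = n) : x ∈ U (σ n) := by
  refine F.C.irr.mem_of_single fun i hi => ?_
  obtain ⟨m, rfl⟩ := F.surj i
  rw [h m hi]; rfl

theorem kill {s t : ℝ} {l : L6} (hs : s ∈ O6 U T z l)
    (h : Real.sin ((t - s) * (Real.pi / 3)) ≠ 0) :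
    l.1 ∉ T (pt z s + pt z t - z) ∧ l.2 ∉ T (pt z s + pt z t - z) := by
  have harc := F.C.irr.arc_of_pair (F.C.pal l.1) (F.C.pal l.2) hs.1
  obtain ⟨hne1, hne2⟩ := ang_ne z h
  have key : ∀ i, i ∈ ({l.1, l.2} : Set (Fin 6)) → i ∉ T (pt z s + pt z t - z) := by
    intro i hi hT
    refine line_free F.C.irr (dist_pt z s) (harc.mono fun q hq => by rw [hq]; exact hi) ?_ ?_ ?_
      (F.C.irr.sub _ hT)
    · rw [dist_comm, dist_eq_norm]
      have : pt z s + pt z t - z - pt z s = pt z t - z := by ring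
      rw [this, ← dist_eq_norm, dist_pt]
    · intro h1; exact hne2 (by linear_combination h1)
    · intro h1; exact hne1 (by linear_combination h1)
  exact ⟨key _ (Or.inl rfl), key _ (Or.inr rfl)⟩

theorem listV {k m : Fin 6} {a b : ℝ} (ha : -ε < a) (ha' : a < 0) (hb : 0 < b) (hb' : b < ε)
    (h : σ m ∈ T (pt z (u + k.val + a) + pt z (u + k.val + b) - z)) : m = k + 1 ∨ m = k + 4 := by
  have hle := F.le
  have s1 := sin_pos6 (t := (u + k.val + b) - (u + k.val + a)) (by linarith) (by linarith)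
  have k1 := F.kill (F.L k a ha ha') s1.ne'
  have s2 : Real.sin (((u + k.val + a) - (u + k.val + b)) * (Real.pi / 3)) ≠ 0 := by
    have e : ((u + k.val + a) - (u + k.val + b)) * (Real.pi / 3) =
      -(((u + k.val + b) - (u + k.val + a)) * (Real.pi / 3)) := by ring
    rw [e, Real.sin_neg]; exact (neg_neg_of_pos s1).ne
  have k2 := F.kill (F.R k b hb hb') s2
  rw [add_comm (pt z (u + k.val + b))] at k2
  have dec : ∀ k m : Fin 6, m ≠ k - 1 → m ≠ k + 3 → m ≠ k → m ≠ k + 2 → m = k + 1 ∨ m = k + 4 := by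
    decide
  exact dec k m (fun e => k1.1 (e ▸ h)) (fun e => k1.2 (e ▸ h)) (fun e => k2.1 (e ▸ h))
    (fun e => k2.2 (e ▸ h))

/-- lists at sums of two points of the circle -/
theorem list2 {k j m : Fin 6} {a b : ℝ} {l l' : L6} (hl : u + k.val + a ∈ O6 U T z l)
    (hl' : u + ((k + j).val : ℝ) + b ∈ O6 U T z l')
    (hs : 0 < (j.val : ℝ) + b - a) (hs' : (j.val : ℝ) + b - a < 3)
    (h : m ∈ T (pt z (u + k.val + a) + pt z (u + k.val + j.val + b) - z)) :
    m ≠ l.1 ∧ m ≠ l.2 ∧ m ≠ l'.1 ∧ m ≠ l'.2 := by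
  have s1 := sin_pos6 (t := (u + k.val + j.val + b) - (u + k.val + a)) (by linarith) (by linarith)
  have k1 := F.kill hl s1.ne'
  have s2 : Real.sin (((u + k.val + a) - (u + k.val + j.val + b)) * (Real.pi / 3)) ≠ 0 := by
    have e : ((u + k.val + a) - (u + k.val + j.val + b)) * (Real.pi / 3) =
      -(((u + k.val + j.val + b) - (u + k.val + a)) * (Real.pi / 3)) := by ring
    rw [e, Real.sin_neg]; exact (neg_neg_of_pos s1).ne
  have k2 := F.kill (o6_shift.1 hl') s2
  rw [add_comm (pt z (u + k.val + j.val + b))] at k2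
  exact ⟨fun e => k1.1 (e ▸ h), fun e => k1.2 (e ▸ h), fun e => k2.1 (e ▸ h),
    fun e => k2.2 (e ▸ h)⟩

/-- the limit directions -/
theorem dr_cond {c : Fin 6} {θ : ℝ} (h : θ ∈ Dr T z (σ c)) :
    ∃ n : ℤ, u + c.val - 1 / 2 < θ + 6 * n ∧ θ + 6 * n < u + c.val + 3 / 2 := by
  have hpos := F.pos
  have hle := F.le
  have f1 := Int.floor_le ((θ - u - c.val + 9 / 2) / 6)
  have f2 := Int.lt_floor_add_one ((θ - u - c.val + 9 / 2) / 6)
  set N := ⌊(θ - u - c.val + 9 / 2) / 6⌋ with hN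
  refine ⟨-N, ?_, by push_cast; linarith⟩
  by_contra hcon
  push_cast at hcon
  push Not at hcon
  have e6 : ∀ c : Fin 6, c + 4 + 2 = c := by decide
  have e6' : ∀ c : Fin 6, c + 3 + 3 = c := by decide
  rcases le_total (-3) (θ - u - c.val - 6 * N) with h3 | h3
  · -- the outer letter just after the position `c - 2`
    have hd := F.C.dir_out (F.R (c + 4) (ε / 2) (by linarith) (by linarith)) (θ := θ)
      (by rw [e6]; exact h)
    have h4 : (((4 : Fin 6)).val : ℝ) = 4 := by norm_num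
    rcases val_add_real c 4 with hv | hv
    · rw [hv, h4] at hd
      exact absurd hd (not_le.2 (cos_pos6 (n := N - 1) (by push_cast; linarith)
        (by push_cast; linarith)))
    · rw [hv, h4] at hd
      exact absurd hd (not_le.2 (cos_pos6 (n := N) (by linarith) (by linarith)))
  · have hd := F.C.dir_out (F.L (c + 3) (-(ε / 2)) (by linarith) (by linarith)) (θ := θ)
      (by rw [e6']; exact h)
    have h4 : (((3 : Fin 6)).val : ℝ) = 3 := by norm_num
    rcases val_add_real c 3 with hv | hv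
    · rw [hv, h4] at hd
      exact absurd hd (not_le.2 (cos_pos6 (n := N - 1) (by push_cast; linarith)
        (by push_cast; linarith)))
    · rw [hv, h4] at hd
      exact absurd hd (not_le.2 (cos_pos6 (n := N) (by linarith) (by linarith)))

/-- `Pal` at the points of the circle, part 1 -/
theorem palA (j : Fin 6) : σ (j + 4) ∉ Pal U (pt z (u + j.val)) := by
  have hno : ∀ c : Fin 6, c ≠ j + 4 → u + j.val - 3 / 2 ∉ Dr T z (σ c) := by
    intro c hc hθ
    obtain ⟨n, n1, n2⟩ := F.dr_cond hθ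
    apply hc
    have m1 : ((c.val : ℤ) : ℝ) + 1 < ((j.val + 6 * n : ℤ) : ℝ) := by push_cast; linarith
    have m2 : ((j.val + 6 * n : ℤ) : ℝ) < ((c.val : ℤ) : ℝ) + 3 := by push_cast; linarith
    have m1' : (c.val : ℤ) + 1 < j.val + 6 * n := by exact_mod_cast m1
    have m2' : (j.val : ℤ) + 6 * n < c.val + 3 := by exact_mod_cast m2
    have hv : (j + 4).val = (j.val + 4) % 6 := by rw [Fin.val_add]; rfl
    have hj := j.isLt
    have hc2 := c.isLt
    apply Fin.ext
    rw [hv]
    omega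
  have h1 : ∀ᶠ p in 𝓝 ((0 : ℝ), u + j.val - 3 / 2), ∀ c : Fin 6, c ≠ j + 4 → p ∉ PoS T z (σ c) := by
    rw [eventually_all]
    intro c
    by_cases hc : c = j + 4
    · exact Eventually.of_forall fun p h => absurd hc h
    · have h2 := hno c hc
      rw [mem_dr, not_frequently] at h2
      exact h2.mono fun p hp _ => hp
  have h2 : Tendsto (fun d : ℝ => (2 * Real.sin (d * (Real.pi / 6)), u + j.val + d / 2 - 3 / 2))
      (𝓝[>] 0) (𝓝 ((0 : ℝ), u + j.val - 3 / 2)) := by
    have hc : Continuous fun d : ℝ =>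
      (2 * Real.sin (d * (Real.pi / 6)), u + j.val + d / 2 - 3 / 2) := by fun_prop
    have h3 := hc.tendsto 0
    simp only [zero_mul, Real.sin_zero, mul_zero, zero_div, add_zero] at h3
    exact h3.mono_left nhdsWithin_le_nhds
  obtain ⟨d, hd1, hd2⟩ := ((h2.eventually h1).and (Ioo_mem_nhdsGT (show (0 : ℝ) < 1 by norm_num))).exists
  have hd2 : 0 < d ∧ d < 1 := hd2
  have hs : 0 < Real.sin (d * (Real.pi / 6)) := by
    have hpi := Real.pi_pos
    exact Real.sin_pos_of_pos_of_lt_pi (mul_pos hd2.1 (by positivity)) (by nlinarith [hd2.2])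
  have hU : z + pt z (u + j.val) - pt z (u + j.val + d) ∈ U (σ (j + 4)) := by
    refine F.mem_of fun m hm => ?_
    by_contra hne
    refine hd1 m hne ⟨by show 0 < 2 * _; linarith, ?_⟩
    rw [← polar1]; exact hm
  refine F.C.irr.mx.notMem' hU ?_
  rw [dist_eq_norm]
  have e : z + pt z (u + j.val) - pt z (u + j.val + d) - pt z (u + j.val) =
    -(pt z (u + j.val + d) - z) := by ring
  rw [e, norm_neg, ← dist_eq_norm, dist_pt]

/-- `Pal` at the points of the circle, part 2 -/
theorem palA' (j : Fin 6) : σ (j + 1) ∉ Pal U (pt z (u + j.val)) := by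
  have hno : ∀ c : Fin 6, c ≠ j + 1 → u + j.val + 3 / 2 ∉ Dr T z (σ c) := by
    intro c hc hθ
    obtain ⟨n, n1, n2⟩ := F.dr_cond hθ
    apply hc
    have m1 : ((c.val : ℤ) : ℝ) < ((j.val + 6 * n : ℤ) : ℝ) + 2 := by push_cast; linarith
    have m2 : ((j.val + 6 * n : ℤ) : ℝ) < ((c.val : ℤ) : ℝ) := by push_cast; linarith
    have m1' : (c.val : ℤ) < j.val + 6 * n + 2 := by exact_mod_cast m1
    have m2' : (j.val : ℤ) + 6 * n < c.val := by exact_mod_cast m2
    have hv : (j + 1).val = (j.val + 1) % 6 := by rw [Fin.val_add]; rfl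
    have hj := j.isLt
    have hc2 := c.isLt
    apply Fin.ext
    rw [hv]
    omega
  have h1 : ∀ᶠ p in 𝓝 ((0 : ℝ), u + j.val + 3 / 2), ∀ c : Fin 6, c ≠ j + 1 → p ∉ PoS T z (σ c) := by
    rw [eventually_all]
    intro c
    by_cases hc : c = j + 1
    · exact Eventually.of_forall fun p h => absurd hc h
    · have h2 := hno c hc
      rw [mem_dr, not_frequently] at h2
      exact h2.mono fun p hp _ => hp
  have h2 : Tendsto (fun d : ℝ => (2 * Real.sin (-d * (Real.pi / 6)), u + j.val + d / 2 + 3 / 2))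
      (𝓝[<] 0) (𝓝 ((0 : ℝ), u + j.val + 3 / 2)) := by
    have hc : Continuous fun d : ℝ =>
      (2 * Real.sin (-d * (Real.pi / 6)), u + j.val + d / 2 + 3 / 2) := by fun_prop
    have h3 := hc.tendsto 0
    simp only [neg_zero, zero_mul, Real.sin_zero, mul_zero, zero_div, add_zero] at h3
    exact h3.mono_left nhdsWithin_le_nhds
  obtain ⟨d, hd1, hd2⟩ := ((h2.eventually h1).and
    (Ioo_mem_nhdsLT (show (-1 : ℝ) < 0 by norm_num))).exists
  have hd2 : -1 < d ∧ d < 0 := hd2
  have hs : 0 < Real.sin (-d * (Real.pi / 6)) := by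
    have hpi := Real.pi_pos
    exact Real.sin_pos_of_pos_of_lt_pi (mul_pos (by linarith [hd2.2]) (by positivity))
      (by nlinarith [hd2.1])
  have hU : z + pt z (u + j.val) - pt z (u + j.val + d) ∈ U (σ (j + 1)) := by
    refine F.mem_of fun m hm => ?_
    by_contra hne
    refine hd1 m hne ⟨by show 0 < 2 * _; linarith, ?_⟩
    rw [← polar2]; exact hm
  refine F.C.irr.mx.notMem' hU ?_
  rw [dist_eq_norm]
  have e : z + pt z (u + j.val) - pt z (u + j.val + d) - pt z (u + j.val) =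
    -(pt z (u + j.val + d) - z) := by ring
  rw [e, norm_neg, ← dist_eq_norm, dist_pt]

theorem inF (j : Fin 6) : InF U z (pt z (u + j.val)) (σ (j + 2)) := by
  refine F.C.in_of_outer ?_
  have h1 : ∀ᶠ v in 𝓝[>] (u + (j.val : ℝ)), ∃ i, v ∈ O6 U T z (i, σ (j + 2)) := by
    filter_upwards [Ioo_mem_nhdsGT (show u + (j.val : ℝ) < u + j.val + ε by linarith [F.pos])]
      with v hv
    have hv : u + (j.val : ℝ) < v ∧ v < u + j.val + ε := hv
    have := F.R j (v - (u + j.val)) (by linarith [hv.1]) (by linarith [hv.2])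
    rw [add_sub_cancel] at this
    exact ⟨_, this⟩
  exact h1.frequently.filter_mono nhdsWithin_le_nhds

/-- `Pal` at the second shell -/
theorem palB (k : Fin 6) : σ (k + 1) ∉ Pal U (pt z (u + k.val + 1) + pt z (u + k.val + 2) - z) := by
  have hpos := F.pos
  have hle := F.le
  set y := pt z (u + k.val + 1) with hy
  have c1 : ((1 : Fin 6).val : ℝ) = 1 := by norm_num
  have c2 : ((2 : Fin 6).val : ℝ) = 2 := by norm_num
  have hy1 : pt z (u + ((k + 1).val : ℝ)) = y := by
    have := pt_shift z u 0 k 1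
    rw [add_zero, add_zero, c1] at this
    exact this
  have i1 := F.inF (k + 1)
  have p1 := F.palA (k + 1)
  have p2 := F.palA' (k + 1)
  rw [hy1] at i1 p1 p2
  have hev : ∀ᶠ x in 𝓝 y, T x ⊆ T y ∧ (dist x z < 1 → σ (k + 1 + 2) ∉ Pal U x) :=
    (F.C.irr.nhd y).and i1
  have hcont : Continuous fun p : ℝ × ℝ => pt z (u + k.val + p.1) + pt z (u + k.val + 2 + p.2) - z :=
    (((continuous_pt z).comp (by fun_prop)).add ((continuous_pt z).comp (by fun_prop))).sub
      continuous_const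
  have h0 := hcont.tendsto ((0 : ℝ), (0 : ℝ))
  have e0 : pt z (u + k.val + 0) + pt z (u + k.val + 2 + 0) - z = y := by
    rw [add_zero, add_zero, pt_sum, hy]; ring
  simp only [e0] at h0
  obtain ⟨δ, hδ, hbox⟩ := box (h0.eventually hev)
  set b := min δ ε / 2 with hb
  have hb0 : 0 < b := by have := lt_min hδ hpos; positivity
  have hbδ : b < δ := by have := min_le_left δ ε; have := lt_min hδ hpos; rw [hb]; linarith
  have hbε : b < ε := by have := min_le_right δ ε; have := lt_min hδ hpos; rw [hb]; linarith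
  obtain ⟨a, ha0, hab, hG⟩ := exists_GG hb0 (by linarith)
  obtain ⟨hT, hI⟩ := hbox a b (by rw [abs_of_pos ha0]; linarith) (by rw [abs_of_pos hb0]; exact hbδ)
  set x := pt z (u + k.val + a) + pt z (u + k.val + 2 + b) - z with hx
  have hxz : dist x z < 1 := by
    have hc : Real.cos ((2 + b - a) * (Real.pi / 3)) < -(1 / 2) := by
      have hpi := Real.pi_pos
      have h1 := Real.cos_lt_cos_of_nonneg_of_le_pi (x := 2 * (Real.pi / 3))
        (y := (2 + b - a) * (Real.pi / 3)) (by positivity) (by nlinarith) (by nlinarith)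
      have h2 : Real.cos (2 * (Real.pi / 3)) = -(1 / 2) := by
        have : 2 * (Real.pi / 3) = Real.pi - Real.pi / 3 := by ring
        rw [this, Real.cos_pi_sub, Real.cos_pi_div_three]
      rw [h2] at h1; exact h1
    have hsq : dist x z ^ 2 = 2 + 2 * Real.cos ((2 + b - a) * (Real.pi / 3)) := by
      rw [dist_eq_norm, sq_norm', hx]
      unfold pt
      simp only [Complex.sub_re, Complex.sub_im, Complex.add_re, Complex.add_im, cis_re, cis_im]
      have e : (2 + b - a) * (Real.pi / 3) = (u + k.val + 2 + b) * (Real.pi / 3) -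
        (u + k.val + a) * (Real.pi / 3) := by ring
      rw [e, Real.cos_sub]
      have h1 := Real.sin_sq_add_cos_sq ((u + k.val + 2 + b) * (Real.pi / 3))
      have h2 := Real.sin_sq_add_cos_sq ((u + k.val + a) * (Real.pi / 3))
      linear_combination h1 + h2
    have := dist_nonneg (x := x) (y := z)
    nlinarith
  have hU : x ∈ U (σ (k + 1)) := by
    refine F.mem_of fun m hm => ?_
    have hl := F.list2 (k := k) (j := 2) (m := σ m) (F.R k a ha0 (by linarith))
      (F.R (k + 2) b hb0 hbε) (by rw [c2]; linarith) (by rw [c2]; linarith)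
      (by rw [c2]; exact hm)
    have q1 : m ≠ k + 1 + 4 := fun e => p1 (F.C.irr.sub _ (hT (e ▸ hm)))
    have q2 : m ≠ k + 1 + 1 := fun e => p2 (F.C.irr.sub _ (hT (e ▸ hm)))
    have q3 : m ≠ k + 1 + 2 := fun e => hI hxz (F.C.irr.sub _ (e ▸ hm))
    have dec : ∀ k m : Fin 6, m ≠ k → m ≠ k + 2 → m ≠ k + 2 + 2 → m ≠ k + 1 + 4 →
      m ≠ k + 1 + 2 → m = k + 1 := by decide
    exact dec k m (fun e => hl.1 (e ▸ rfl)) (fun e => hl.2.1 (e ▸ rfl)) (fun e => hl.2.2.2 (e ▸ rfl))
      q1 q3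
  exact F.C.irr.mx.notMem' hU (by rw [hx, hy, dist_X]; exact hG)

end Fl

/-- the points between -/
def VV (z : ℂ) (u : ℝ) (k : Fin 6) (a b : ℝ) : ℂ := pt z (u + k.val + a) + pt z (u + k.val + b) - z

/-- the points between -/
def WW (z : ℂ) (u : ℝ) (k : Fin 6) (a b : ℝ) : ℂ :=
  pt z (u + k.val + a) + pt z (u + k.val + 1 + b) - z

theorem continuous_VV (z : ℂ) (u : ℝ) (k : Fin 6) : Continuous fun p : ℝ × ℝ => VV z u k p.1 p.2 := by
  unfold VV
  exact (((continuous_pt z).comp (by fun_prop)).add ((continuous_pt z).comp (by fun_prop))).sub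
    continuous_const

theorem continuous_WW (z : ℂ) (u : ℝ) (k : Fin 6) : Continuous fun p : ℝ × ℝ => WW z u k p.1 p.2 := by
  unfold WW
  exact (((continuous_pt z).comp (by fun_prop)).add ((continuous_pt z).comp (by fun_prop))).sub
    continuous_const

theorem VV_succ (z : ℂ) (u : ℝ) (k : Fin 6) (a b : ℝ) :
    VV z u (k + 1) a b = pt z (u + k.val + 1 + a) + pt z (u + k.val + 1 + b) - z := by
  unfold VV
  rw [pt_shift, pt_shift]
  have c1 : ((1 : Fin 6).val : ℝ) = 1 := by norm_num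
  rw [c1]

theorem dist_VW (z : ℂ) (u : ℝ) (k : Fin 6) (a b : ℝ) : dist (VV z u k a b) (WW z u k a b) = 1 := by
  have h := dist_pt_one z (u + k.val + b)
  rw [dist_eq_norm] at h ⊢
  rw [← h]
  unfold VV WW
  congr 1
  have e : u + k.val + 1 + b = u + k.val + b + 1 := by ring
  rw [e]; ring

theorem dist_WV (z : ℂ) (u : ℝ) (k : Fin 6) (a b : ℝ) :
    dist (WW z u k a b) (VV z u (k + 1) a b) = 1 := by
  have h := dist_pt_one z (u + k.val + a)
  rw [VV_succ]
  rw [dist_eq_norm] at h ⊢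
  refine Eq.trans ?_ h
  unfold WW
  congr 1
  have e : u + k.val + 1 + a = u + k.val + a + 1 := by ring
  rw [e]; ring

namespace Fl

variable {u ε : ℝ} {σ : Fin 6 → Fin 6} (F : Fl U T z u ε σ)
include F

theorem palB' (k : Fin 6) : σ k ∉ Pal U (WW z u k 0 0) := by
  have h := F.palB (k - 1)
  have e1 : k - 1 + 1 = k := sub_add_cancel k 1
  have c1 : ((1 : Fin 6).val : ℝ) = 1 := by norm_num
  have h1 := pt_shift z u 0 (k - 1) 1
  have h2 := pt_shift z u (1 + 0) (k - 1) 1
  rw [e1, c1] at h1 h2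
  rw [e1] at h
  unfold WW
  have e2 : u + k.val + 1 + 0 = u + k.val + (1 + 0) := by ring
  rw [e2, h1, h2]
  have e3 : u + ((k - 1).val : ℝ) + 1 + 0 = u + ((k - 1).val : ℝ) + 1 := by ring
  have e4 : u + ((k - 1).val : ℝ) + 1 + (1 + 0) = u + ((k - 1).val : ℝ) + 2 := by ring
  rw [e3, e4]
  exact h

/-- lists between -/
theorem listW : ∃ δ, 0 < δ ∧ δ ≤ ε ∧ ∀ k : Fin 6, ∀ a b : ℝ, -δ < a → a < 0 → 0 < b → b < δ →
    ∀ m, σ m ∈ T (WW z u k a b) → m = k + 2 ∨ m = k + 4 := by
  have hpos := F.pos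
  have hle := F.le
  have c1 : ((1 : Fin 6).val : ℝ) = 1 := by norm_num
  have hev : ∀ᶠ p in 𝓝 ((0 : ℝ), (0 : ℝ)), ∀ k : Fin 6, T (WW z u k p.1 p.2) ⊆ T (WW z u k 0 0) := by
    rw [eventually_all]
    intro k
    exact ((continuous_WW z u k).tendsto ((0 : ℝ), (0 : ℝ))).eventually (F.C.irr.nhd _)
  obtain ⟨δ, hδ, hbox⟩ := box hev
  refine ⟨min δ ε, lt_min hδ hpos, min_le_right _ _, fun k a b ha ha' hb hb' m hm => ?_⟩
  have hd1 := min_le_left δ ε
  have hd2 := min_le_right δ ε
  have hsub := hbox a b (by rw [abs_of_neg ha']; linarith) (by rw [abs_of_pos hb]; linarith) k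
  have q0 : m ≠ k := fun e => F.palB' k (F.C.irr.sub _ (hsub (e ▸ hm)))
  have hl := F.list2 (k := k) (j := 1) (m := σ m) (F.L k a (by linarith) ha')
    (F.R (k + 1) b hb (by linarith)) (by rw [c1]; linarith) (by rw [c1]; linarith)
    (by rw [c1]; exact hm)
  have dec : ∀ k m : Fin 6, m ≠ k - 1 → m ≠ k + 3 → m ≠ k + 1 → m ≠ k → m = k + 2 ∨ m = k + 4 := by
    decide
  exact dec k m (fun e => hl.1 (e ▸ rfl)) (fun e => hl.2.1 (e ▸ rfl)) (fun e => hl.2.2.1 (e ▸ rfl)) q0

end Fl

/-- the data near the flip -/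
structure Fm (U : Fin 6 → Set ℂ) (T : ℂ → Set (Fin 6)) (z : ℂ) (u ε δ : ℝ) (σ : Fin 6 → Fin 6) :
    Prop extends Fl U T z u ε σ where
  dpos : 0 < δ
  dle : δ ≤ ε
  w : ∀ k : Fin 6, ∀ a b : ℝ, -δ < a → a < 0 → 0 < b → b < δ →
    ∀ m, σ m ∈ T (WW z u k a b) → m = k + 2 ∨ m = k + 4

namespace Fm

variable {u ε δ : ℝ} {σ : Fin 6 → Fin 6} (F : Fm U T z u ε δ σ)
include F

theorem v {k m : Fin 6} {a b : ℝ} (ha : -δ < a) (ha' : a < 0) (hb : 0 < b) (hb' : b < δ)
    (h : σ m ∈ T (VV z u k a b)) : m = k + 1 ∨ m = k + 4 :=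
  F.toFl.listV (by linarith [F.dle]) ha' hb (by linarith [F.dle]) h

theorem up {k : Fin 6} {a b : ℝ} (ha : -δ < a) (ha' : a < 0) (hb : 0 < b) (hb' : b < δ)
    (h : σ (k + 1) ∉ T (VV z u k a b)) : σ (k + 1 + 1) ∉ T (VV z u (k + 1) a b) := by
  have h1 : VV z u k a b ∈ U (σ (k + 4)) := F.toFl.mem_of fun m hm => by
    rcases F.v ha ha' hb hb' hm with e | e
    · exact absurd (e ▸ hm) h
    · exact e
  have h2 := F.C.irr.mx.notMem' h1 (dist_VW z u k a b)
  have h3 : WW z u k a b ∈ U (σ (k + 2)) := F.toFl.mem_of fun m hm => by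
    rcases F.w k a b ha ha' hb hb' m hm with e | e
    · exact e
    · exact absurd (F.C.irr.sub _ (e ▸ hm)) h2
  have h4 := F.C.irr.mx.notMem' h3 (dist_WV z u k a b)
  have e : k + 1 + 1 = k + 2 := by rw [add_assoc]; rfl
  rw [e]
  exact fun h5 => h4 (F.C.irr.sub _ h5)

theorem up_all {a b : ℝ} (ha : -δ < a) (ha' : a < 0) (hb : 0 < b) (hb' : b < δ) {k : Fin 6}
    (h : σ (k + 1) ∉ T (VV z u k a b)) (n : ℕ) :
    σ (k + Fin.ofNat 6 n + 1) ∉ T (VV z u (k + Fin.ofNat 6 n) a b) := by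
  induction n with
  | zero => simpa using h
  | succ n ih =>
    have := F.up ha ha' hb hb' ih
    have e : k + Fin.ofNat 6 n + 1 = k + Fin.ofNat 6 (n + 1) := by
      apply Fin.ext
      simp only [Fin.val_add, Fin.ofNat, Fin.val_one]
      omega
    rw [e] at this
    exact this

theorem up_any {a b : ℝ} (ha : -δ < a) (ha' : a < 0) (hb : 0 < b) (hb' : b < δ) {k : Fin 6}
    (h : σ (k + 1) ∉ T (VV z u k a b)) (j : Fin 6) : σ (j + 1) ∉ T (VV z u j a b) := by
  have := F.up_all ha ha' hb hb' h (j - k).val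
  have e : k + Fin.ofNat 6 (j - k).val = j := by
    have : Fin.ofNat 6 (j - k).val = j - k := by
      apply Fin.ext; simp [Fin.ofNat]
    rw [this]; exact add_sub_cancel k j
  rw [e] at this
  exact this

theorem down {k : Fin 6} {a b : ℝ} (ha : -δ < a) (ha' : a < 0) (hb : 0 < b) (hb' : b < δ)
    (h : σ (k + 1 + 4) ∉ T (VV z u (k + 1) a b)) : σ (k + 4) ∉ T (VV z u k a b) := by
  have h1 : VV z u (k + 1) a b ∈ U (σ (k + 1 + 1)) := F.toFl.mem_of fun m hm => by
    rcases F.v ha ha' hb hb' hm with e | e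
    · exact e
    · exact absurd (e ▸ hm) h
  have h2 := F.C.irr.mx.notMem' h1 (by rw [dist_comm]; exact dist_WV z u k a b)
  have h3 : WW z u k a b ∈ U (σ (k + 4)) := F.toFl.mem_of fun m hm => by
    rcases F.w k a b ha ha' hb hb' m hm with e | e
    · have e2 : k + 1 + 1 = k + 2 := by rw [add_assoc]; rfl
      rw [e2] at h2
      exact absurd (F.C.irr.sub _ (e ▸ hm)) h2
    · exact e
  have h4 := F.C.irr.mx.notMem' h3 (by rw [dist_comm]; exact dist_VW z u k a b)
  exact fun h5 => h4 (F.C.irr.sub _ h5)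

/-- **No mixed points.** -/
theorem pure {a b : ℝ} (ha : -δ < a) (ha' : a < 0) (hb : 0 < b) (hb' : b < δ) :
    σ 1 ∉ T (VV z u 0 a b) ∨ σ 4 ∉ T (VV z u 0 a b) := by
  by_contra hcon
  push Not at hcon
  obtain ⟨h1, h4⟩ := hcon
  by_cases h2 : σ 2 ∈ T (VV z u 1 a b)
  · have hs := sin_pos6 (t := b - a) (by linarith) (by linarith [F.dle, F.le])
    have hs1 : Real.sin (((u + (0 : Fin 6).val + 1 + b + 1) - (u + (0 : Fin 6).val + 1 + a + 1)) *
        (Real.pi / 3)) ≠ 0 := by
      have e : (u + (0 : Fin 6).val + 1 + b + 1) - (u + (0 : Fin 6).val + 1 + a + 1) = b - a := by ring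
      rw [e]; exact hs.ne'
    obtain ⟨n1, n2⟩ := ang_ne z hs1
    have p1 := pt_sum z (u + (0 : Fin 6).val + b)
    have p2 := pt_sum z (u + (0 : Fin 6).val + a)
    have ev1 : VV z u 1 a b = pt z (u + (0 : Fin 6).val + 1 + a) + pt z (u + (0 : Fin 6).val + 1 + b) - z :=
      VV_succ z u 0 a b
    have a1 : u + (0 : Fin 6).val + 1 + b + 1 = u + (0 : Fin 6).val + b + 2 := by ring
    have a2 : u + (0 : Fin 6).val + 1 + a + 1 = u + (0 : Fin 6).val + a + 2 := by ring
    have a3 : u + (0 : Fin 6).val + 1 + b = u + (0 : Fin 6).val + b + 1 := by ring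
    have a4 : u + (0 : Fin 6).val + 1 + a = u + (0 : Fin 6).val + a + 1 := by ring
    rw [a1, a2] at n1 n2
    refine no_cross F.C.irr (x := WW z u 0 a b) (c := VV z u 0 a b) (q := VV z u 1 a b) (i := σ 4)
      (j := σ 2) (by rw [dist_comm]; exact dist_VW z u 0 a b) (dist_WV z u 0 a b) ?_ ?_ ?_
      (F.C.irr.sub _ h4) (F.C.irr.sub _ h2)
    · intro h
      rw [ev1] at h
      unfold VV at h
      rw [a3, a4] at h
      exact n2 (by linear_combination p1 + p2 - h)
    · intro h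
      rw [ev1] at h
      unfold VV WW at h
      rw [a3, a4] at h
      exact n1 (by linear_combination p1 - p2 - h)
    · intro i hi
      obtain ⟨m, rfl⟩ := F.toFl.surj i
      rcases F.w 0 a b ha ha' hb hb' m hi with e | e
      · rw [e]; exact Or.inr rfl
      · rw [e]; exact Or.inl rfl
  · exact F.up_any ha ha' hb hb' (k := 1) h2 0 h1

/-- one type everywhere -/
theorem type : (∀ a b : ℝ, -δ < a → a < 0 → 0 < b → b < δ → σ 1 ∉ T (VV z u 0 a b)) ∨
    (∀ a b : ℝ, -δ < a → a < 0 → 0 < b → b < δ → σ 4 ∉ T (VV z u 0 a b)) := by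
  obtain ⟨f, hf⟩ : ∃ f : ℝ × ℝ → ℂ, ∀ a b, f (a, b) = VV z u 0 a b :=
    ⟨fun p => VV z u 0 p.1 p.2, fun a b => rfl⟩
  have hfc : Continuous f := by
    have h := continuous_VV z u 0
    have e : f = fun p : ℝ × ℝ => VV z u 0 p.1 p.2 := by funext ⟨a, b⟩; exact hf a b
    rw [e]; exact h
  have hS : IsPreconnected (Ioo (-δ) 0 ×ˢ Ioo 0 δ) := isPreconnected_Ioo.prod isPreconnected_Ioo
  have ho : ∀ c : Fin 6, IsOpen (f ⁻¹' {x | c ∈ T x})ᶜ := fun c =>
    ((F.C.irr.closed c).preimage hfc).isOpen_compl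
  have key := isPreconnected_iff_subset_of_disjoint.1 hS _ _ (ho (σ 1)) (ho (σ 4)) ?_ ?_
  · rcases key with h | h
    · left
      intro a b ha ha' hb hb'
      have h1 := h (mk_mem_prod (mem_Ioo.2 ⟨ha, ha'⟩) (mem_Ioo.2 ⟨hb, hb'⟩))
      rw [← hf]; exact h1
    · right
      intro a b ha ha' hb hb'
      have h1 := h (mk_mem_prod (mem_Ioo.2 ⟨ha, ha'⟩) (mem_Ioo.2 ⟨hb, hb'⟩))
      rw [← hf]; exact h1
  · rintro ⟨a, b⟩ hab
    obtain ⟨⟨ha, ha'⟩, ⟨hb, hb'⟩⟩ := mem_prod.1 hab
    have := F.pure ha ha' hb hb'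
    rw [← hf] at this
    exact this
  · rw [Set.eq_empty_iff_forall_notMem]
    rintro ⟨a, b⟩ ⟨hab, h1, h2⟩
    obtain ⟨⟨ha, ha'⟩, ⟨hb, hb'⟩⟩ := mem_prod.1 hab
    have h1 : σ 1 ∉ T (f (a, b)) := h1
    have h2 : σ 4 ∉ T (f (a, b)) := h2
    rw [hf] at h1 h2
    obtain ⟨m, hm⟩ := F.toFl.exi (VV z u 0 a b)
    rcases F.v ha ha' hb hb' hm with e | e
    · rw [zero_add] at e; exact h1 (e ▸ hm)
    · rw [zero_add] at e; exact h2 (e ▸ hm)

/-- **No flip.** -/
theorem false : False := by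
  have hd := F.dpos
  have hde := F.dle
  have hle := F.le
  have c0 : ((0 : Fin 6).val : ℝ) = 0 := by norm_num
  have c1 : ((1 : Fin 6).val : ℝ) = 1 := by norm_num
  obtain ⟨a, b, ha, ha', hb, hb', hF⟩ := exists_FF hd (by linarith)
  have d0 : dist (VV z u 0 a b) (WW z u 0 0 0) = 1 := by
    have h := dist_V0 z (u + (0 : Fin 6).val) a b
    rw [hF] at h
    unfold VV WW
    rw [add_zero (u + _), add_zero (u + _ + 1)]
    exact h
  have d1 : dist (VV z u 1 (-b) (-a)) (WW z u 0 0 0) = 1 := by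
    have h := dist_V1 z (u + (0 : Fin 6).val) (-b) (-a)
    rw [neg_neg, neg_neg, hF] at h
    have h2 := VV_succ z u 0 (-b) (-a)
    rw [zero_add] at h2
    rw [h2]
    unfold WW
    rw [add_zero (u + _), add_zero (u + _ + 1)]
    exact h
  have hnear : ∀ᶠ p in 𝓝 ((0 : ℝ), (0 : ℝ)), T (WW z u 0 p.1 p.2) ⊆ T (WW z u 0 0 0) :=
    ((continuous_WW z u 0).tendsto ((0 : ℝ), (0 : ℝ))).eventually (F.C.irr.nhd _)
  obtain ⟨r, hr, hbox⟩ := box hnear
  set t := min r ε / 2 with ht
  have hm := lt_min hr F.pos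
  have hm1 := min_le_left r ε
  have hm2 := min_le_right r ε
  have ht0 : 0 < t := by positivity
  have htr : t < r := by rw [ht]; linarith
  have htε : t < ε := by rw [ht]; linarith
  rcases F.type with h | h
  · -- all pure, colours `j + 4`
    have e0 : VV z u 0 a b ∈ U (σ 4) := F.toFl.mem_of fun m hm => by
      rcases F.v ha ha' hb hb' hm with e | e
      · rw [zero_add] at e
        exact absurd (e ▸ hm) (h a b ha ha' hb hb')
      · exact e
    have e1 : VV z u 1 (-b) (-a) ∈ U (σ 5) := F.toFl.mem_of fun m hm => by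
      rcases F.v (by linarith) (by linarith) (by linarith) (by linarith) hm with e | e
      · exact absurd (e ▸ hm) (F.up_any (k := 0) (by linarith) (by linarith) (by linarith)
          (by linarith) (h (-b) (-a) (by linarith) (by linarith) (by linarith) (by linarith)) 1)
      · exact e
    have f4 := F.C.irr.mx.notMem' e0 d0
    have f5 := F.C.irr.mx.notMem' e1 d1
    obtain ⟨m, hm⟩ := F.toFl.exi (WW z u 0 t t)
    have hsub := hbox t t (by rw [abs_of_pos ht0]; exact htr) (by rw [abs_of_pos ht0]; exact htr)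
    have q4 : m ≠ 4 := fun e => f4 (F.C.irr.sub _ (hsub (e ▸ hm)))
    have q5 : m ≠ 5 := fun e => f5 (F.C.irr.sub _ (hsub (e ▸ hm)))
    have hl := F.toFl.list2 (k := 0) (j := 1) (m := σ m) (F.R 0 t ht0 htε) (F.R (0 + 1) t ht0 htε)
      (by rw [c1]; linarith) (by rw [c1]; linarith) (by rw [c1]; exact hm)
    have dec : ∀ m : Fin 6, m ≠ 0 → m ≠ 0 + 2 → m ≠ 0 + 1 → m ≠ 0 + 1 + 2 → m ≠ 4 → m = 5 := by
      decide
    exact q5 (dec m (fun e => hl.1 (e ▸ rfl)) (fun e => hl.2.1 (e ▸ rfl))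
      (fun e => hl.2.2.1 (e ▸ rfl)) (fun e => hl.2.2.2 (e ▸ rfl)) q4)
  · have e0 : VV z u 0 a b ∈ U (σ 1) := F.toFl.mem_of fun m hm => by
      rcases F.v ha ha' hb hb' hm with e | e
      · exact e
      · rw [zero_add] at e
        exact absurd (e ▸ hm) (h a b ha ha' hb hb')
    have hx : σ (1 + 4) ∉ T (VV z u 1 (-b) (-a)) := by
      have g0 := h (-b) (-a) (by linarith) (by linarith) (by linarith) (by linarith)
      have g5 := F.down (k := 5) (by linarith) (by linarith) (by linarith) (by linarith)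
        (show σ (5 + 1 + 4) ∉ T (VV z u (5 + 1) (-b) (-a)) from g0)
      have g4 := F.down (k := 4) (by linarith) (by linarith) (by linarith) (by linarith)
        (show σ (4 + 1 + 4) ∉ T (VV z u (4 + 1) (-b) (-a)) from g5)
      have g3 := F.down (k := 3) (by linarith) (by linarith) (by linarith) (by linarith)
        (show σ (3 + 1 + 4) ∉ T (VV z u (3 + 1) (-b) (-a)) from g4)
      have g2 := F.down (k := 2) (by linarith) (by linarith) (by linarith) (by linarith)
        (show σ (2 + 1 + 4) ∉ T (VV z u (2 + 1) (-b) (-a)) from g3)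
      exact F.down (k := 1) (by linarith) (by linarith) (by linarith) (by linarith)
        (show σ (1 + 1 + 4) ∉ T (VV z u (1 + 1) (-b) (-a)) from g2)
    have e1 : VV z u 1 (-b) (-a) ∈ U (σ 2) := F.toFl.mem_of fun m hm => by
      rcases F.v (by linarith) (by linarith) (by linarith) (by linarith) hm with e | e
      · exact e
      · exact absurd (e ▸ hm) hx
    have f1 := F.C.irr.mx.notMem' e0 d0
    have f2 := F.C.irr.mx.notMem' e1 d1
    obtain ⟨m, hm⟩ := F.toFl.exi (WW z u 0 (-t) (-t))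
    have hab : |(-t)| < r := by rw [abs_neg, abs_of_pos ht0]; exact htr
    have hsub := hbox (-t) (-t) hab hab
    have q1 : m ≠ 1 := fun e => f1 (F.C.irr.sub _ (hsub (e ▸ hm)))
    have q2 : m ≠ 2 := fun e => f2 (F.C.irr.sub _ (hsub (e ▸ hm)))
    have hl := F.toFl.list2 (k := 0) (j := 1) (m := σ m) (F.L 0 (-t) (by linarith) (by linarith))
      (F.L (0 + 1) (-t) (by linarith) (by linarith)) (by rw [c1]; linarith) (by rw [c1]; linarith)
      (by rw [c1]; exact hm)
    have dec : ∀ m : Fin 6, m ≠ 0 - 1 → m ≠ 0 + 3 → m ≠ 0 + 1 - 1 → m ≠ 0 + 1 + 3 → m ≠ 1 →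
      m = 2 := by decide
    exact q2 (dec m (fun e => hl.1 (e ▸ rfl)) (fun e => hl.2.1 (e ▸ rfl))
      (fun e => hl.2.2.1 (e ▸ rfl)) (fun e => hl.2.2.2 (e ▸ rfl)) q1)

end Fm

/-- **Case I.** The crystal word does not flip. -/
theorem _root_.Vale.Agent.P032.H892.C6.no_flip (C : C6 U T z) {u : ℝ} {σ : Fin 6 → Fin 6}
    (hσ : Function.Injective σ) (hL : ∀ k : Fin 6, LL U T z (u + k.val) = (σ (k - 1), σ (k + 3)))
    (hR : ∀ k : Fin 6, LR U T z (u + k.val) = (σ k, σ (k + 2))) : False := by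
  have h1 : ∀ᶠ a in 𝓝[<] (0 : ℝ), ∀ k : Fin 6, u + k.val + a ∈ O6 U T z (σ (k - 1), σ (k + 3)) := by
    rw [eventually_all]
    intro k
    have ht : Tendsto (fun a : ℝ => u + k.val + a) (𝓝[<] 0) (𝓝[<] (u + k.val)) := by
      refine tendsto_nhdsWithin_iff.2 ⟨?_, ?_⟩
      · have := (by fun_prop : Continuous fun a : ℝ => u + k.val + a).tendsto 0
        rw [add_zero] at this
        exact this.mono_left nhdsWithin_le_nhds
      · filter_upwards [self_mem_nhdsWithin] with a ha
        have ha : a < 0 := ha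
        show u + k.val + a < u + k.val
        linarith
    have := ht.eventually (C.ll_spec (u + k.val))
    rwa [hL k] at this
  have h2 : ∀ᶠ a in 𝓝[>] (0 : ℝ), ∀ k : Fin 6, u + k.val + a ∈ O6 U T z (σ k, σ (k + 2)) := by
    rw [eventually_all]
    intro k
    have ht : Tendsto (fun a : ℝ => u + k.val + a) (𝓝[>] 0) (𝓝[>] (u + k.val)) := by
      refine tendsto_nhdsWithin_iff.2 ⟨?_, ?_⟩
      · have := (by fun_prop : Continuous fun a : ℝ => u + k.val + a).tendsto 0
        rw [add_zero] at this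
        exact this.mono_left nhdsWithin_le_nhds
      · filter_upwards [self_mem_nhdsWithin] with a ha
        have ha : 0 < a := ha
        show u + k.val < u + k.val + a
        linarith
    have := ht.eventually (C.lr_spec (u + k.val))
    rwa [hR k] at this
  obtain ⟨l, hl, hl2⟩ := (mem_nhdsLT_iff_exists_Ioo_subset (a := (0 : ℝ))).1 h1
  obtain ⟨r, hr, hr2⟩ := (mem_nhdsGT_iff_exists_Ioo_subset (a := (0 : ℝ))).1 h2
  have hl : l < 0 := hl
  have hr : 0 < r := hr
  have F : Fl U T z u (min (min (-l) r) (1 / 4)) σ := by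
    have m1 := min_le_left (min (-l) r) (1 / 4)
    have m2 := min_le_left (-l) r
    have m3 := min_le_right (-l) r
    refine ⟨C, hσ, lt_min (lt_min (by linarith) hr) (by norm_num), min_le_right _ _, ?_, ?_⟩
    · intro k a ha ha'
      exact hl2 (show l < a ∧ a < 0 from ⟨by linarith, ha'⟩) k
    · intro k a ha ha'
      exact hr2 (show 0 < a ∧ a < r from ⟨ha, by linarith⟩) k
  obtain ⟨δ, hδ, hδε, hw⟩ := F.listW
  exact (Fm.mk F hδ hδε hw).false

end Vale.Agent.P032.H821
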